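import Vale.Agent.P014T.St
import Vale.Agent.P014T.Ig.Mat

/-! # P014T, top level: the rows `LGI` and `TWA` -/

set_option linter.all false

open Matrix
open scoped NumberTheorySymbols

namespace Vale.Agent.P014T.Top

open Vale.Agent.P022 (GQ)
open Vale.Agent.P004F (sd hq M2)

namespace Li

variable {M X X' : M2 ℤ_[2]} (hM : M.det ≠ 0)
include hM

theorem inj {v : Fin 2 → ℤ_[2]} (h : M *ᵥ v = 0) : v = 0 :=
  by_contra fun k => hM (Matrix.exists_mulVec_eq_zero_iff.1 ⟨v, k, h⟩)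

theorem one (e : X * M = M * X') : X = 1 ↔ X' = 1 := by
  have k : ∀ Y : M2 ℤ_[2], M.det • Y = 0 → Y = 0 := fun Y h => (smul_eq_zero.1 h).resolve_left hM
  refine ⟨fun h => sub_eq_zero.1 (k _ ?_), fun h => sub_eq_zero.1 (k _ ?_)⟩
  · rw [← one_mul (X' - 1), ← smul_mul_assoc, ← adjugate_mul, mul_assoc, mul_sub, ← e, h, one_mul,
      mul_one, sub_self, mul_zero]
  · rw [← mul_one (X - 1), ← mul_smul_comm, ← mul_adjugate, ← mul_assoc, sub_mul, e, h, one_mul,
      mul_one, sub_self, zero_mul]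

theorem tr (e : X * M = M * X') : X.trace = X'.trace := mul_left_cancel₀ hM (by
  have := congrArg (fun Y => (Y * M.adjugate).trace) e
  rwa [mul_assoc, mul_adjugate, trace_mul_cycle, adjugate_mul, mul_smul_comm, smul_mul_assoc,
    mul_one, one_mul, trace_smul, trace_smul] at this)

omit hM in
theorem vec (e : X * M = M * X') (v : Fin 2 → ℤ_[2]) : X *ᵥ (M *ᵥ v) = M *ᵥ (X' *ᵥ v) := by
  rw [mulVec_mulVec, mulVec_mulVec, e]

variable {r r' : GQ → M2 ℤ_[2]} (e : ∀ g, r g * M = M * r' g) {t : ℤ} {p : ℕ}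
include e

theorem no (h : No r p) : No r' p := fun P o v hv =>
  inj hM (h P o _ fun g k => by rw [vec (e g), hv g k])

theorem gd (h : Gd r t p) : Gd r' t p := fun P o =>
  ⟨fun g k => (one hM (e g)).1 ((h P o).1 g k), fun φ f => tr hM (e φ) ▸ (h P o).2 φ f⟩

theorem mu (h : Mu r t p) : Mu r' t p := fun P o =>
  ⟨(h P o).1.imp fun g k => ⟨k.1, fun a => k.2 ((one hM (e g)).2 a)⟩, fun v hv φ f =>
    sub_eq_zero.1 (inj hM (by
      rw [mulVec_sub, ← vec (e φ), (h P o).2 _ (fun g k => by rw [vec (e g), hv g k]) φ f,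
        mulVec_smul, sub_self]))⟩

end Li

/-- **row LGI** -/
theorem lgi : LGI := fun A B A' B' h h' N a d f k p hp h2 => by
  obtain ⟨M, hM, e⟩ := Ig.isog_mat (hq h) (hq h') f
  exact (k p hp h2).imp (Li.no hM fun g => by rw [smul_mul_assoc, e, mul_smul_comm])
    (And.imp_right (Or.imp (And.imp_right (Li.gd hM e)) (And.imp_right (Li.mu hM e))))

/-- **row TWA** -/
theorem twa : TWA := fun A B A' B' d h h' d0 f =>
  (f.union (Lk.bd A B * Lk.bd A' B' * d.natAbs).primeFactors.finite_toSet).subset fun p k =>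
    by_contra fun b => by
      have n : ¬ p ∣ Lk.bd A B * Lk.bd A' B' * d.natAbs := fun c => b (.inr (Nat.mem_primeFactors.2
        ⟨k.1, c, mul_ne_zero (mul_ne_zero (Lk.bd_ne h) (Lk.bd_ne h')) (Int.natAbs_ne_zero.2 d0)⟩))
      have n' : ¬ p ∣ d.natAbs := fun c => n (c.mul_left _)
      refine k.2 ?_
      rw [Lk.al_prime k.1 (fun c => n ((c.mul_right _).mul_right _)) n',
        Lk.al_prime k.1 (fun c => n ((c.mul_left _).mul_right _)) n',
        (by_contra fun c => b (.inl ⟨k.1, c⟩) : P004M.TE.al A B p = _)]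

end Vale.Agent.P014T.Top
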