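import Vale.Agent.P014T.Tp.Lgu
import Vale.Agent.P014T.Tp.Lgi
import Vale.Agent.P014T.Gt.Elc
import Vale.Agent.P014T.Lu.All
import Vale.Agent.P004M.Qone

/-! # P014T: the row LGU, closed form -/

namespace Vale.Agent.P014T.Top

theorem lgu_all : LGU := lgu Lu.lg2_all (Lu.lgg P004M.qone) Lu.hb elc lgi

end Vale.Agent.P014T.Top
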