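import Vale.Agent.P014T.St
import Vale.Agent.P014T.Lk.Mod
import Vale.Agent.P014T.Kx.Tw
import Vale.Agent.P014T.Ki.Wp
import Vale.Agent.P004S.Bas3
import Vale.Agent.P004N.H65.Fin

/-! # P014T: rows MODN and TWS -/

set_option autoImplicit false
set_option linter.all false

open NumberField Matrix UpperHalfPlane
open scoped NumberTheorySymbols Classical

noncomputable section

namespace Vale.Agent.P014T.Top

open Vale.Agent.P022 (Qb GQ)
open Vale.Agent.P027M.S (Inert)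
open Vale.Agent.P022E.GW (Ov Fb)
open Vale.Agent.P004F (sd hq M2)
open P004M.TE (Pt ga mt al Tm rho bs)
open P004N (RN)
open P027M.K (TM)
open Lk (bd)
open Kx

/-- **row MODN** -/
theorem modn (hM : Lk.MD) : MODN := fun _ _ h =>
  let ⟨N, G, a, k⟩ := Lk.mod0 hM h
  ⟨N, G, a, k.1, k.2⟩

namespace Ts

variable {A B A' B' d : ℤ} {p N : ℕ} {G : ℍ → ℂ} {a : ℕ → ℤ}

theorem sd_one (g : GQ) : sd 1 g = 1 := Tw.sd_eq_one.2 (P004S.nu_one_left g)

theorem no_one {r : GQ → M2 ℤ_[2]} : No (fun g => sd 1 g • r g) p ↔ No r p := by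
  simp only [sd_one, one_smul]

/-- coordinates -/
theorem mt_vec (h : El A B) (g : GQ) (x : Tm A B) :
    mt (hq h) g *ᵥ (bs (hq h)).equivFun x = (bs (hq h)).equivFun (rho A B g x) :=
  LinearMap.toMatrix_mulVec_repr (bs (hq h)) (bs (hq h)) (rho A B g) x

/-- the twisted representation is the representation of the twist -/
theorem no_tw (t : Tw.Tq d A B A' B') (h : El A B) (h' : El A' B')
    (n : No (fun g => sd d g • mt (hq h) g) p) : No (mt (hq h')) p := fun P o v k => by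
  obtain ⟨x, rfl⟩ := (bs (hq h')).equivFun.surjective v
  have z := n P o ((bs (hq h)).equivFun (TM.map 2 (Tw.tw t).symm.toAddMonoidHom x)) fun g i => by
    have e := (bs (hq h')).equivFun.injective ((mt_vec h' g x).symm.trans (k g i))
    rw [smul_mulVec, mt_vec h, ← map_zsmul]
    refine congrArg _ (TM.ext fun r => ?_)
    rw [map_zsmul]
    show sd d g • ga g ((Tw.tw t).symm (TM.cp r x)) = (Tw.tw t).symm (TM.cp r x)
    rw [← Tw.symm_ga, ← P004M.TE.cp_rho, e]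
  rw [LinearEquiv.map_eq_zero_iff] at z ⊢
  exact TM.ext fun r => (Tw.tw t).symm.map_eq_zero_iff.1 (congrArg (TM.cp r) z)

/-- good primes -/
theorem gd (h : El A B) (hp : p.Prime) (b : ¬ p ∣ bd A B) : Gd (mt (hq h)) (al A B p) p :=
  fun P o => by
  have : Fact p.Prime := ⟨hp⟩
  refine ⟨fun g i => ?_, fun φ f => ?_⟩
  · have := congrArg Units.val (P004M.TE.unr_rep (hq h) (Lk.nbd b) P o.2.1 o.2.2 g i)
    rw [P004M.TE.rep_val, Units.val_one, ← map_one (algebraMap ℤ_[2] ℚ_[2]).mapMatrix] at this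
    exact Matrix.map_injective Subtype.val_injective this
  · rw [(P004M.TE.frob_mt (hq h) (Lk.nbd b) ⟨P, o.2.1, o.2.2, f⟩).1, P004M.TE.al_eq (Lk.nbd b),
      Int.cast_neg]

/-- inertia fixes a vector at every prime or at none -/
theorem fix (h : El A B) (n : ¬ No (mt (hq h)) p) {P : Ideal (𝓞 Qb)} (o : Ov p P) :
    ∃ v : Fin 2 → ℤ_[2], v ≠ 0 ∧ ∀ g, Inert P g → mt (hq h) g *ᵥ v = v := by
  simp only [No, not_forall] at n
  obtain ⟨Q, o', v, k, v0⟩ := n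
  obtain ⟨t, c, -⟩ := P004S.ex_conj o' o
  refine ⟨mt (hq h) t *ᵥ v, fun e => v0 ?_, fun g i => ?_⟩
  · rw [← one_mulVec v, ← map_one (mt (hq h)), ← inv_mul_cancel t, map_mul, ← mulVec_mulVec, e,
      mulVec_zero]
  · refine Eq.trans ?_ (congrArg (mt (hq h) t *ᵥ ·) (k _ (c g i)))
    rw [mulVec_mulVec, mulVec_mulVec, ← map_mul, ← map_mul, ← mul_assoc, ← mul_assoc,
      mul_inv_cancel, one_mul]

theorem two {M : M2 ℤ_[2]} {v w : Fin 2 → ℤ_[2]} (hd : M.det = 1) (v0 : v ≠ 0) (hv : M *ᵥ v = v)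
    (hw : (-1 : ℤ) • M *ᵥ w = w) : w = 0 := by
  by_contra w0
  have e1 := exists_mulVec_eq_zero_iff.1 ⟨v, v0, show (M - 1) *ᵥ v = 0 by
    rw [sub_mulVec, hv, one_mulVec, sub_self]⟩
  have e2 := exists_mulVec_eq_zero_iff.1 ⟨w, w0, show (M + 1) *ᵥ w = 0 by
    rw [add_mulVec, one_mulVec, ← neg_eq_iff_add_eq_zero, ← neg_one_zsmul, hw]⟩
  simp only [det_fin_two, Matrix.sub_apply, Matrix.add_apply, one_apply_eq, ne_eq, zero_ne_one, one_ne_zero,
    not_false_eq_true, one_apply_ne] at hd e1 e2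
  exact (by norm_num : (4 : ℤ_[2]) ≠ 0) (by linear_combination e1 + e2 - 2 * hd)

/-- a ramified twist has no invariants -/
theorem ram (h : El A B) (h2 : p ≠ 2) (s : Squarefree d) (k : (p : ℤ) ∣ d)
    (n : ¬ No (mt (hq h)) p) : No (fun g => sd d g • mt (hq h) g) p := fun P o w f => by
  obtain ⟨v, v0, e⟩ := fix h n o
  obtain ⟨τ, t⟩ := P022E.GW.Tg.ex_gn' o
  have := f τ t.1
  beta_reduce at this
  rw [show sd d τ = -1 from if_neg (by rw [P004S.nu_tau o h2 s k t]; exact one_ne_zero),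
    smul_mulVec] at this
  exact two ((Ki.det_mt _ _).trans (Subtype.ext (P004S.Aq.cy_in o h2 t.1))) v0 (e τ t.1) this

/-- an unramified twist keeps the invariants -/
theorem unr {r : GQ → M2 ℤ_[2]} (h2 : p ≠ 2) (k : ¬ (p : ℤ) ∣ d) (n : No r p) :
    No (fun g => sd d g • r g) p := fun P o w f => n P o w fun g i => by
  have := f g i
  beta_reduce at this
  rwa [Tw.sd_eq_one.2 (P004S.nu_inert o h2 k i), one_smul] at this

theorem gd_not {r : GQ → M2 ℤ_[2]} {t : ℤ} (hp : p.Prime) (g : Gd r t p) : ¬ No r p := fun n => by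
  obtain ⟨P, h⟩ := P022.H916.exists_prime hp
  exact one_ne_zero (n P ⟨hp, h⟩ 1 fun x i => by rw [(g P ⟨hp, h⟩).1 x i, one_mulVec])

/-- **the newform of a twist** -/
theorem rn_tw (h : RN N G a) (s : Squarefree d) (k : d % 4 = 1) : ∃ N' G' a', RN N' G' a' ∧
    ∀ p : ℕ, p.Prime → p ≠ 2 → ¬ p ∣ N → ¬ (p : ℤ) ∣ d → ¬ p ∣ N' ∧ a' p = a p * J(d | p) := by
  obtain ⟨M, g, b, ε, k1, k2, k3, -⟩ := P004N.pfNewP N G a ⟨h.pos, h.s2, h.qe, h.one, h.te⟩ d
    (Or.inl ⟨k, s⟩)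
  obtain ⟨c, rfl⟩ := P004Z.EF.nf_int k1 (S := N * d.natAbs)
    (mul_pos h.pos (Int.natAbs_pos.2 s.ne_zero)) fun p hp e =>
      ⟨_, (k3 p (hp.coprime_iff_not_dvd.2 e)).trans (Int.cast_mul _ _).symm⟩
  refine ⟨M, g, c, P004T.rn_of_nf k1, fun p hp h2 e1 e2 => ?_⟩
  have e : ¬ p ∣ N * d.natAbs := fun e =>
    (hp.dvd_mul.1 e).elim e1 fun e => e2 (Int.natCast_dvd.2 e)
  refine ⟨fun m => e (k2 p hp m), ?_⟩
  have := k3 p (hp.coprime_iff_not_dvd.2 e)
  rw [P004H.H871.kr_one_mod k] at this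
  rw [Lk.jac k (hp.odd_of_ne_two h2)]
  beta_reduce at this
  exact_mod_cast this

/-- the exceptional primes -/
theorem ex_bad (h : El A B) (f : Nf A B N G a) : ∃ S : Finset ℕ, Pm S ∧ 2 ∈ S ∧
    ∀ p : ℕ, p.Prime → p ∉ S → ¬ p ∣ N ∧ ¬ p ∣ bd A B ∧ al A B p = a p := by
  have n := mul_ne_zero f.rn.pos.ne' (Lk.bd_ne h)
  refine ⟨insert 2 (f.fin.toFinset ∪ (N * bd A B).primeFactors), fun p m => ?_,
    Finset.mem_insert_self _ _, fun p hp m => ?_⟩
  · rcases Finset.mem_insert.1 m with rfl | m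
    · exact Nat.prime_two
    · exact (Finset.mem_union.1 m).elim (fun m => (f.fin.mem_toFinset.1 m).1)
        Nat.prime_of_mem_primeFactors
  · simp only [Finset.mem_insert, Finset.mem_union, Set.Finite.mem_toFinset, Set.mem_setOf_eq,
      Nat.mem_primeFactors, not_or, hp, true_and, n, ne_eq, not_false_eq_true, and_true,
      not_not, hp.dvd_mul] at m
    exact ⟨m.2.2.1, m.2.2.2, m.2.1⟩

/-- **a twist which is ramified exactly at the exceptional primes with invariants** -/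
theorem key (h : El A B) (f : Nf A B N G a) {S : Finset ℕ}
    (hS : ∀ p : ℕ, p.Prime → p ∉ S → ¬ p ∣ N ∧ ¬ p ∣ bd A B ∧ al A B p = a p) (ad : Ad d)
    (k : ∀ p ∈ S, p ≠ 2 → ((p : ℤ) ∣ d ↔ ¬ No (mt (hq h)) p)) : Lg h N a d ∧
    ∀ h' : El (A * d ^ 2) (B * d ^ 3), ∃ N' G' a',
      Nf (A * d ^ 2) (B * d ^ 3) N' G' a' ∧ Lg h' N' a' 1 := by
  have c : ∀ p : ℕ, p.Prime → p ≠ 2 →
      No (fun g => sd d g • mt (hq h) g) p ∨ p ∉ S ∧ ¬ (p : ℤ) ∣ d := fun p hp h2 => by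
    by_cases e : (p : ℤ) ∣ d
    · refine Or.inl (ram h h2 ad.1 e ?_)
      by_cases m : p ∈ S
      · exact (k p m h2).1 e
      · exact gd_not hp (gd h hp (hS p hp m).2.1)
    · by_cases m : p ∈ S
      · exact Or.inl (unr h2 e (not_not.1 (mt (k p m h2).2 e)))
      · exact Or.inr ⟨m, e⟩
  refine ⟨fun p hp h2 => (c p hp h2).imp_right fun ⟨m, e⟩ =>
    ⟨e, Or.inl ⟨(hS p hp m).1, (hS p hp m).2.2 ▸ gd h hp (hS p hp m).2.1⟩⟩, fun h' => ?_⟩
  obtain ⟨N', G', a', r, t⟩ := rn_tw f.rn ad.1 (by have := ad.2; omega)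
  have q : ∀ p : ℕ, p.Prime → p ≠ 2 → p ∉ S → ¬ (p : ℤ) ∣ d →
      al (A * d ^ 2) (B * d ^ 3) p = a' p := fun p hp h2 m e => by
    rw [Lk.al_prime hp (hS p hp m).2.1 fun x => e (Int.natCast_dvd.2 x), (hS p hp m).2.2,
      (t p hp h2 (hS p hp m).1 e).2]
  refine ⟨N', G', a', ⟨r, (insert 2 (S ∪ d.natAbs.primeFactors)).finite_toSet.subset
    fun p x => ?_⟩, fun p hp h2 => (c p hp h2).imp (fun n => ?_) fun ⟨m, e⟩ => ⟨?_, Or.inl
      ⟨(t p hp h2 (hS p hp m).1 e).1, q p hp h2 m e ▸ gd h' hp fun x => ?_⟩⟩⟩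
  · by_contra y
    simp only [Finset.coe_insert, Finset.coe_union, Set.mem_insert_iff, Set.mem_union,
      Finset.mem_coe, Nat.mem_primeFactors, not_or, x.1, true_and, ne_eq, Int.natAbs_eq_zero,
      ad.1.ne_zero, not_false_eq_true, and_true] at y
    exact x.2 (q p x.1 y.1 y.2.1 fun e => y.2.2 (Int.natCast_dvd.1 e))
  · exact no_one.2 (no_tw (Tw.tq ad.1.ne_zero A B) h h' n)
  · exact (Nat.prime_iff_prime_int.1 hp).not_dvd_one
  · rw [Lk.bd_tw] at x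
    exact (hp.dvd_mul.1 x).elim (hS p hp m).2.1 fun x =>
      e (Int.natCast_dvd.2 (hp.dvd_of_dvd_pow x))

/-- a parameter with given primes in `S` -/
theorem ex_ad {S T : Finset ℕ} (hS : Pm S) (hT : T ⊆ S) (h2 : 2 ∉ T) : ∃ (d : ℤ) (S' : Finset ℕ),
    Ad d ∧ 0 < d ∧ Pm S' ∧ S ⊆ S' ∧ (∀ p ∈ S, (p : ℤ) ∣ d ↔ p ∈ T) ∧
      ∀ p : ℕ, p.Prime → (p : ℤ) ∣ d → p ∈ S' := by
  have m : ∀ p : ℕ, p.Prime → (p ∣ ∏ q ∈ T, q ↔ p ∈ T) := fun p hp => by
    rw [hp.prime.dvd_finset_prod_iff]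
    exact ⟨fun ⟨q, x, y⟩ => (Nat.prime_dvd_prime_iff_eq hp (hS q (hT x))).1 y ▸ x,
      fun x => ⟨p, x, dvd_rfl⟩⟩
  have o : (∏ q ∈ T, q).Coprime 8 := Nat.Coprime.pow_right 3
    (Nat.prime_two.coprime_iff_not_dvd.2 (mt (m 2 Nat.prime_two).1 h2)).symm
  obtain ⟨q, l, hq, e⟩ := Nat.forall_exists_prime_gt_and_modEq (S.sup id) (by norm_num) o
  have n : q ∉ S := fun x => absurd (Finset.le_sup (f := id) x) (not_le.2 l)
  have v : ∀ p : ℕ, p.Prime → ((p : ℤ) ∣ ((∏ q ∈ T, q) * q : ℕ) ↔ p ∈ T ∨ p = q) := fun p hp => by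
    rw [Int.natCast_dvd_natCast, hp.dvd_mul, m p hp, Nat.prime_dvd_prime_iff_eq hp hq]
  refine ⟨((∏ q ∈ T, q) * q : ℕ), insert q S, ⟨Int.squarefree_natCast.2 ?_, ?_⟩, ?_, ?_,
    Finset.subset_insert _ _, fun p x => ?_, fun p hp x => ?_⟩
  · exact (Nat.squarefree_mul (hq.coprime_iff_not_dvd.2 fun x => n (hT ((m q hq).1 x))).symm).2
      ⟨Finset.squarefree_prod_of_pairwise_isCoprime (fun x a y b c => Nat.coprime_iff_isRelPrime.1
        ((Nat.coprime_primes (hS x (hT a)) (hS y (hT b))).2 c))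
        fun x a => (hS x (hT a)).prime.squarefree, hq.prime.squarefree⟩
  · have := Nat.odd_iff.1 (Nat.coprime_two_right.1 (o.coprime_dvd_right (by norm_num : 2 ∣ 8)))
    generalize ∏ q ∈ T, q = z at *
    have y : z * q % 8 = 1 := by
      rw [Nat.mul_mod, e]
      have : z % 8 = 1 ∨ z % 8 = 3 ∨ z % 8 = 5 ∨ z % 8 = 7 := by omega
      rcases this with x | x | x | x <;> rw [x]
    omega
  · exact Int.natCast_pos.2 (mul_pos (Finset.prod_pos fun x a => (hS x (hT a)).pos) hq.pos)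
  · exact fun p x => (Finset.mem_insert.1 x).elim (· ▸ hq) (hS p)
  · rw [v p (hS p x)]
    exact or_iff_left fun y => n (y ▸ x)
  · exact Finset.mem_insert.2 (((v p hp).1 x).symm.imp_right fun y => hT y)

theorem ad_mul {d e : ℤ} (h : Ad d) (k : Ad e) (c : ∀ p : ℕ, p.Prime → (p : ℤ) ∣ d → ¬ (p : ℤ) ∣ e) :
    Ad (d * e) := by
  refine ⟨squarefree_mul_iff.2 ⟨(Int.isCoprime_iff_gcd_eq_one.2 (Nat.coprime_of_dvd
    fun p hp x y => c p hp (Int.natCast_dvd.2 x) (Int.natCast_dvd.2 y))).isRelPrime, h.1, k.1⟩, ?_⟩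
  rw [Int.mul_emod, h.2, k.2]
  rfl

end Ts

open Ts

/-- **row TWS** -/
theorem tws : TWS := fun A B h N G a f => by
  obtain ⟨S, s, -, b⟩ := ex_bad h f
  obtain ⟨d₀, S', a1, -, a2, a3, a4, a5⟩ := ex_ad s
    (Finset.filter_subset (fun p => p ≠ 2 ∧ ¬ No (mt (hq h)) p) S)
    fun x => (Finset.mem_filter.1 x).2.1 rfl
  refine ⟨d₀, S', a1, a2, fun d ad c => ?_⟩
  have m := ad_mul a1 ad fun p hp x => c p (a5 p hp x)
  refine ⟨m, key h f b m fun p x h2 => ?_⟩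
  rw [(Nat.prime_iff_prime_int.1 (s p x)).dvd_mul, a4 p x, or_iff_left (c p (a3 x)),
    Finset.mem_filter, and_iff_right x, and_iff_right h2]

end Vale.Agent.P014T.Top
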