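import Vale.Agent.P014T.St
import Vale.Agent.P014T.Bt.Top
import Vale.Agent.P014T.Rk.Lwc
import Vale.Agent.P014T.Lc.V2

/-! # P014T: from the exact count to the discrepancy -/

set_option autoImplicit false
set_option linter.all false

open NumberField
open scoped Classical

noncomputable section

namespace Vale.Agent.P014T.Top

open Vale.Agent.P014 (realPeriod torsionOrder shaPrimary Sha)
open Vale.Agent.P022 (Qb GQ IsConj)
open Vale.Agent.P022D.W (dec)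
open Vale.Agent.P022E.GW (Ov)
open Vale.Agent.P004S.Ga (K)
open Vale.Agent.P004F (hq)
open P004M.TE (Pt ga al)
open P004N (RN IsEll cE)
open P004N.T8 (inc)
open P004N.H169 (IsLh)
open P027M.K (TM)
open Bt (dd Z0 Zl Gp p0 Lb Fm)
open Wm (Fx)
open Lc (Wq tm np)
open Sm (Md)
open Ba (sp Tk Dv)
open AddSubgroup (zmultiples)

theorem sp_low {Z : Type} [AddCommGroup Z] {a x : Z} {i j : ℕ} (hx : 2 ^ j • x = 0)
    (n : 2 ^ i • x ∉ zmultiples a) : Nat.card (zmultiples a) * 2 ^ (i + 1) ≤ sp a x := by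
  let π := QuotientAddGroup.mk' (zmultiples a)
  have e := Ba.card_map π (zmultiples a ⊔ zmultiples x)
  rw [QuotientAddGroup.ker_mk', inf_eq_left.2 le_sup_left, AddSubgroup.map_sup,
    QuotientAddGroup.map_mk'_self, bot_sup_eq, AddMonoidHom.map_zmultiples,
    Nat.card_zmultiples (π x)] at e
  obtain ⟨k, -, hk⟩ := (Nat.dvd_prime_pow Nat.prime_two).1 (addOrderOf_dvd_of_nsmul_eq_zero
    (show 2 ^ j • π x = 0 by rw [← map_nsmul, hx, map_zero]))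
  rw [sp, ← e, hk]
  refine Nat.mul_le_mul_left _ (Nat.pow_le_pow_right two_pos (Nat.lt_of_not_le fun l => n ?_))
  exact (QuotientAddGroup.eq_zero_iff _).1 ((map_nsmul π _ _).trans
    (addOrderOf_dvd_iff_nsmul_eq_zero.1 (hk ▸ pow_dvd_pow 2 l)))

theorem nv {n : ℕ} (h : n ≠ 0) : (2 : ℝ) ^ padicValNat 2 n = ‖(n : K)‖⁻¹ := by
  rw [Padic.norm_eq_zpow_neg_valuation (Nat.cast_ne_zero.2 h), Padic.valuation_natCast]
  simp

theorem val_eq {ρ : ℚ} {α : ℤ_[2]} (h : ρ ≠ 0) (e : ‖(ρ : K)‖ = ‖α‖) :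
    α ≠ 0 ∧ padicValRat 2 ρ = α.valuation := by
  have r : (ρ : K) ≠ 0 := Rat.cast_ne_zero.2 h
  have a : α ≠ 0 := fun z => r (norm_eq_zero.1 (by rw [e, z, norm_zero]))
  rw [Padic.norm_eq_zpow_neg_valuation r, PadicInt.norm_eq_zpow_neg_valuation a,
    Padic.valuation_ratCast] at e
  exact ⟨a, neg_injective (zpow_right_injective₀ (by norm_num) (by norm_num) e)⟩

theorem sha_pow (E : WeierstrassCurve ℚ) (f : Finite (shaPrimary E 2)) :
    (Nat.card (shaPrimary E 2) : ℝ) = ‖(Nat.card (shaPrimary E 2) : K)‖⁻¹ := by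
  have : Finite (AddCommGroup.primaryComponent (Sha E) 2) := f
  have e : Nat.card (shaPrimary E 2) = 2 ^ padicValNat 2 (Nat.card (shaPrimary E 2)) :=
    (Nat.card_congr (Equiv.subtypeUnivEquiv fun y : AddCommGroup.primaryComponent (Sha E) 2 =>
      (AddCommGroup.mem_primaryComponent.1 y.2).imp fun _ a => Subtype.ext a)).symm.trans
      (Lc.card_pp _ 2)
  rw [← nv (e ▸ pow_ne_zero _ two_ne_zero)]
  exact_mod_cast e

theorem ex_P {P : Ideal (𝓞 Qb)} (o : Ov 2 P) :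
    ∃ Q : ℕ → Ideal (𝓞 Qb), Q 2 = P ∧ ∀ p, p.Prime → Ov p (Q p) := by
  choose! Q a using fun (p : ℕ) (k : p.Prime) => P022.H916.exists_prime k
  refine ⟨Function.update Q 2 P, Function.update_self .., fun p k => ?_⟩
  by_cases e : p = 2
  · subst e
    rwa [Function.update_self]
  · rw [Function.update_of_ne e]
    exact ⟨k, a p k⟩

variable {A B : ℤ} {S T C : Finset ℕ} {c : GQ} {g : P004M.TE.Tm A B} {i j m n q r : ℕ}
  {x z : GQ → Pt A B}

theorem md_sI (A B : ℤ) : Md (Wq (sI A B)) A B 1 0 0 0 := Lc.md_sh A B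

theorem sI_ne (h : El A B) : (sI A B).Δ ≠ 0 := Lc.sh_ne h

theorem bd_of (L : Lb A B S) : Bd (sI A B) S := ⟨L.lr.pr, fun p hp d => L.lr.bad p hp
  (by_contra fun k => ((Nat.prime_iff_prime_int.1 hp).dvd_or_dvd d).elim
    (fun e => k (e.mul_right _)) (Lk.nd hp k))⟩

theorem z0_up (h : S ⊆ T) : Z0 A B S c ≤ Z0 A B T c := fun _ a =>
  ⟨a.1, a.2.1, a.2.2.1, fun g ⟨l, m, b⟩ => a.2.2.2.1 g ⟨l, fun e => m (h e), b⟩, a.2.2.2.2⟩

theorem np_eq (hp : q.Prime) (k : ¬ (q : ℤ) ∣ 2 * (4 * A ^ 3 + 27 * B ^ 2)) :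
    ((tm (Wq (sI A B)) q * np (sI A B) q : ℕ) : ℤ) = nq A B q := by
  have := Fact.mk hp
  have d : ¬ (q : ℤ) ∣ (sI A B).Δ := Lk.nd hp k
  have := Lc.ell (W := sI A B) fun e => d (e ▸ dvd_zero _)
  have e := P004N.H169.LF.card_point ((sI A B).map (Int.castRingHom (ZMod q))) (by
    rw [WeierstrassCurve.map_Δ]; exact mt (ZMod.intCast_zmod_eq_zero_iff_dvd _ _).1 d)
  rw [Lc.tm_good _ d, one_mul, nq, ← Lk.lf_md (md_sI A B),
    (P004N.H169.LF.LFunction_good _ hp d).1, show np (sI A B) q = _ from e]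
  push_cast
  ring

theorem nq_low (a : C.card ≤ m) (b : ∀ q ∈ C, ¬ (2 : ℤ) ^ m ∣ nq A B q) :
    1 ≤ ‖((∏ q ∈ C, nq A B q : ℤ) : K)‖ * 2 ^ (m * m) := by
  have : ((2 : ℝ) ^ m)⁻¹ ^ C.card ≤ ‖((∏ q ∈ C, nq A B q : ℤ) : K)‖ := by
    rw [Int.cast_prod, norm_prod, ← Finset.prod_const]
    exact Finset.prod_le_prod (fun _ _ => by positivity) fun q k =>
      (not_le.1 (mt (Ba.int_norm _ _).1 (b q k))).le
  rw [inv_pow, ← pow_mul, inv_le_iff_one_le_mul₀ (by positivity)] at this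
  exact this.trans (by gcongr; norm_num)

/-- the group generated by the coboundary and the class is large -/
theorem sg_low (h : El A B) (G : Gp A B c g) (hx : 2 ^ j • x = 0)
    (k : 2 ^ i • x ∉ zmultiples (dd A B (TM.cp j g))) : 2 ^ (j + i + 1) ≤
      2 ^ padicValNat 2 (torsionOrder (Wq (sI A B))) * sp (dd A B (TM.cp j g)) x := by
  have := Lc.ell (sI_ne h)
  obtain ⟨S, p, s⟩ := Cp.Bb.ex_lr h
  have l := Bt.gm_le (s S subset_rfl p).bad G (Bt.card_ag (md_sI A B))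
  have e := Ba.card_map ((dd A B).comp (Bt.hm g)) (Tk Dv j)
  rw [Ba.card_tk, Ba.tk_eq j, AddMonoidHom.map_zmultiples, AddMonoidHom.comp_apply, Bt.hm_u] at e
  rw [Bt.gm_ker] at l
  rw [add_assoc, pow_add, ← e, mul_assoc, ← Ba.card_tk (padicValNat _ _)]
  exact Nat.mul_le_mul (AddSubgroup.card_le_of_le (inf_le_left.trans l)) (sp_low hx k)

/-- the local pairing with a multiple of the class -/
theorem Rc.pr (h : El A B) {P : Ideal (𝓞 Qb)} (o : Ov 2 P) {lg : Fx A B (dec P) →+ K} {μ : K}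
    (k : Rc h P lg m n z μ) (hz : z ∈ Z0 A B S c) (t : 2 ^ n • z = 0) (w : Zl A B (dec P)) (N : ℤ)
    (e : w.1 = N • z) (y : Fx A B (dec P)) : Cp.pr (Ki.pr (hq h)) (Cp.ivP o) (2 ^ m • y) w =
      ((lg (2 ^ m • y) * (N * μ) / 2 ^ n : K) : Dv) := by
  obtain ⟨y', a⟩ := (Ki.pr (hq h)).dvp n (2 ^ m • y).1
  have b := Bt.Z0_le S c (dec P) hz
  rw [show w = N • ⟨z, b⟩ from Subtype.ext e, map_zsmul,
    Cp.pr_eq _ _ _ _ a (.of b fun g _ => congrFun t g), k y y' a]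
  refine (QuotientAddGroup.mk_zsmul _ _ _).symm.trans (congrArg _ ?_)
  rw [zsmul_eq_mul]
  ring

/-- the depleted `L`-function -/
theorem ls (M : MODN) (h : El A B) (a : Ar A B r) : ∃ S₀, Pm S₀ ∧ ∀ S, S₀ ⊆ S → Pm S →
    Lb A B S ∧ ∃ L, IsLh (inc (∏ p ∈ S, p) (cE (Wq (sI A B)))) L ∧ analyticOrderAt L 1 = r ∧
      L 1 = Rk.Lw (al A B) (cS S 1) := by
  have := Lc.ell (sI_ne h)
  obtain ⟨N, G, b, k⟩ := M A B h
  obtain ⟨L, hL, o⟩ := a
  obtain ⟨S1, -, -, t⟩ := Lk.at_fin (md_sI A B) k.rn k.fin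
  obtain ⟨S2, p2, q2⟩ := Bt.ex_lb h
  refine ⟨S1.primeFactors ∪ S2, Finset.forall_mem_union.2
    ⟨fun p => Nat.prime_of_mem_primeFactors, p2⟩,
    fun S s p => ⟨q2 S (Finset.union_subset_right s) p, ?_⟩⟩
  have n0 : ∏ p ∈ S, p ≠ 0 := Finset.prod_ne_zero_iff.2 fun q m => (p q m).ne_zero
  have t' : Lk.At _ b (∏ p ∈ S, p) := ⟨n0, fun n k => t.2 n (by_contra fun e => by
    obtain ⟨q, a1, a2, a3⟩ := Nat.Prime.not_coprime_iff_dvd.1 e
    exact Nat.Prime.not_coprime_iff_dvd.2 ⟨q, a1, a2, Finset.dvd_prod_of_mem _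
      (Finset.union_subset_left s (Nat.mem_primeFactors.2 ⟨a1, a3, t.1⟩))⟩ k)⟩
  have d := Lk.down (P004N.cE_ldr _) n0 (Lk.IsEll.lh hL)
  refine ⟨_, d, (Lk.dep t' hL (t'.inc ▸ d)).2.1.trans o,
    (Rk.Lw_val k.rn ((An.pw_const 1).cp n0) d.1 fun s hs => ?_).trans ?_⟩
  · refine (d.2 s hs).trans (t'.inc ▸ tsum_congr fun n => ?_)
    unfold An.cp inc
    split_ifs <;> simp
  · rw [Rk.Lw_eq, Rk.Lw_eq]
    refine congrArg An.M0 (funext fun n => ?_)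
    unfold An.cp cS
    split_ifs with e
    · rw [← t'.2 n e, Lk.lf_md (md_sI A B), Pi.one_apply]
    · simp

/-- **the end of the proof** -/
theorem dis (h : El A B) (L : Lb A B S) (hC : ∀ q ∈ C, q.Prime ∧ q ∉ S) {M : ℂ → ℂ}
    (hM : IsLh (inc (∏ p ∈ S, p) (cE (Wq (sI A B)))) M) (o : analyticOrderAt M 1 = r)
    {Q : Fin r → (Wq (sI A B)).toAffine.Point} (b : IsBasisModTorsion _ Q)
    (f : Finite (shaPrimary (Wq (sI A B)) 2)) {ρ : ℚ} (ρ0 : ρ ≠ 0)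
    (e : iteratedDeriv r M 1 / r.factorial = ρ * (w0 A B * regulator _ Q : ℝ)) {σ α : ℤ_[2]}
    (σ0 : σ ≠ 0) (F : Fm (sI A B) 1 (S ∪ C) c g j x ‖((∏ q ∈ C, nq A B q : ℤ) : K) * σ * ρ‖)
    (k : (sp (dd A B (TM.cp j g)) x * cz A B (S ∪ C) c j : ℝ) = 16 ^ j * ‖σ * α‖) :
    α ≠ 0 ∧ Bd (sI A B) S ∧ Dis (sI A B) S r α.valuation := by
  have := Lc.ell (sI_ne h)
  have tn : ∀ T : Finset ℕ, Pm T → ∏ p ∈ T, tm (Wq (sI A B)) p * np (sI A B) p ≠ 0 := fun T a =>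
    Finset.prod_ne_zero_iff.2 fun p m => @Lc.tn_ne _ p ⟨a p m⟩ (sI_ne h)
  have v0 := tn S L.lr.pr
  have c0 := tn C fun q m => (hC q m).1
  have t0 := (Sm.tors_pos (Wq (sI A B))).ne'
  have s0 : Nat.card (shaPrimary (Wq (sI A B)) 2) ≠ 0 := Nat.card_ne_zero.2 ⟨⟨⟨0, zero_mem _⟩⟩, f⟩
  have p1 : p0 A B ≠ 0 := by unfold p0; split_ifs <;> simp
  have p2 : (p0 A B : ℝ) = ‖(p0 A B : K)‖⁻¹ := by
    unfold p0
    split_ifs
    · rw [Padic.norm_p, inv_inv]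
    · simp
  have p3 : ‖((∏ p ∈ S, p : ℕ) : K)‖ = 2⁻¹ := by
    rw [← Finset.mul_prod_erase _ _ L.lr.two, Nat.cast_mul, norm_mul, Padic.norm_p,
      Padic.norm_natCast_eq_one_iff.2 (Nat.Coprime.prod_right fun p m =>
        (Nat.coprime_primes Nat.prime_two (L.lr.pr p (Finset.mem_of_mem_erase m))).2
          (Finset.ne_of_mem_erase m).symm)]
    simp
  have p4 : (∏ p ∈ S, p : ℕ) ≠ 0 := Finset.prod_ne_zero_iff.2 fun q m => (L.lr.pr q m).ne_zero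
  rw [Fm, Finset.prod_union (Finset.disjoint_right.2 fun q m => (hC q m).2), nv (mul_ne_zero v0 c0),
    ← Finset.prod_congr rfl fun q m => np_eq (hC q m).1 fun d => (hC q m).2 (L.lr.bad q (hC q m).1 d),
    ← Nat.cast_prod, Int.cast_natCast, mul_assoc (2 * _), show (sp _ _ * Bt.cz A B _ c j : ℝ) = _ from k,
    show (4 : ℝ) = 2 * 2 by norm_num, mul_pow, nv t0, sha_pow _ f, p2] at F
  set V := ∏ p ∈ S, tm (Wq (sI A B)) p * np (sI A B) p with hV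
  set W := ∏ p ∈ C, tm (Wq (sI A B)) p * np (sI A B) p
  set t := torsionOrder (Wq (sI A B)) with ht
  set s := Nat.card (shaPrimary (Wq (sI A B)) 2) with hs
  have r0 : ρ * t ^ 2 * (∏ p ∈ S, p : ℕ) / (p0 A B * s * V) ≠ 0 := by positivity
  have nz : ∀ {n : ℕ}, n ≠ 0 → ‖(n : K)‖ ≠ 0 := fun a => norm_ne_zero_iff.2 (Nat.cast_ne_zero.2 a)
  obtain ⟨a1, a2⟩ := val_eq (α := α) r0 (by
    have := nz v0
    have := nz c0
    have := nz t0
    have := nz s0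
    have := nz p1
    have := norm_ne_zero_iff.2 σ0
    simp only [Rat.cast_div, Rat.cast_mul, Rat.cast_pow, Rat.cast_natCast, Rat.cast_one, Nat.cast_mul,
      norm_div, norm_mul, norm_pow, norm_one, p3, PadicInt.padic_norm_e_of_padicInt] at F ⊢
    field_simp at F ⊢
    linear_combination F)
  refine ⟨a1, bd_of L, M, Q, _, hM, o, b, f, r0, a2, e.trans ?_⟩
  rw [← Complex.ofReal_ratCast, ← Complex.ofReal_ratCast, ← Complex.ofReal_mul, ← Complex.ofReal_mul,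
    Finset.prod_div_distrib, w0, ← Nat.cast_prod, show ∏ p ∈ S, (tm (Wq (sI A B)) p * np (sI A B) p : ℝ)
      = V by rw [hV]; push_cast; rfl, ← ht, ← hs]
  refine congrArg _ ?_
  simp only [Rat.cast_div, Rat.cast_mul, Rat.cast_pow, Rat.cast_natCast]
  field_simp

end Vale.Agent.P014T.Top
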