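import Vale.Agent.P014T.Tp.Bv

/-! # P014T: the main conjecture gives the formula in rank zero -/

set_option autoImplicit false
set_option linter.all false

open NumberField
open scoped Classical

noncomputable section

namespace Vale.Agent.P014T.Top

open Vale.Agent.P014 (torsionOrder)
open Vale.Agent.P022 (GQ)
open Vale.Agent.P004S.Ga (K)
open Vale.Agent.P004F (hq)
open P004M.TE (Pt)
open Bt (dd Z0)
open Lc (Wq)

theorem ex_pow {x : ℝ} (h : 0 < x) (a : ℕ) : ∃ e : ℕ, 2 ^ a < x * 2 ^ e :=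
  (pow_unbounded_of_one_lt (2 ^ a / x) one_lt_two).imp fun _ k => (div_lt_iff₀' h).1 k

/-- **rank zero** -/
theorem bv0 (M : MODN) : BV 0 := fun A B h a => by
  obtain ⟨S₀, p₀, k⟩ := ls M h a
  refine ⟨S₀, p₀, fun S α s p ⟨c, P, ι, lg, σ, ρ, m, hc, o, hι, hl, σ0, e, hz⟩ => ?_⟩
  obtain ⟨L, F, hF, om, v⟩ := k S s p
  obtain ⟨Q, rfl, oq⟩ := ex_P o
  obtain ⟨g, G⟩ := Bt.ex_gp h hc
  have := Lc.ell (sI_ne h)
  have ρ0 : ρ ≠ 0 := fun z => (hF.1 1 Lk.m1).analyticOrderAt_eq_zero.1 om (by simp [v, e, z])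
  obtain ⟨j₀, top⟩ := Bt.top0 (sI_ne h) (md_sI A B) (hq h) hι hl hc G o
  obtain ⟨lg', y, k', -, y0, -⟩ := Lc.two (sI_ne h) (md_sI A B) hι
  obtain rfl := hl.uniq k'
  have κ0 : 0 < ‖(σ * ρ : K)‖ := norm_pos_iff.2 (mul_ne_zero (PadicInt.coe_ne_zero.2 σ0)
    (Rat.cast_ne_zero.2 ρ0))
  have d0 : 0 < ‖lg (2 ^ m • y)‖ := by
    rw [map_nsmul, norm_pos_iff]
    exact smul_ne_zero (by positivity) y0
  obtain ⟨e1, h1⟩ := ex_pow (mul_pos d0 κ0) (m * m)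
  obtain ⟨e2, h2⟩ := ex_pow κ0 (j₀ + m * m)
  generalize hτ : padicValNat 2 (torsionOrder (Wq (sI A B))) = τ
  obtain ⟨i, hi⟩ : ∃ i, i = τ + m + 1 + e2 := ⟨_, rfl⟩
  obtain ⟨w, hw, hw'⟩ : ∃ w, e1 + τ + m ≤ w ∧ e1 + τ + m + 2 ^ m ≤ w :=
    ⟨_, Nat.le_add_right .., le_rfl⟩
  obtain ⟨z, Z⟩ := hz (i + e1 + w)
  obtain ⟨C, c1, c2, mc⟩ := Z.mc
  obtain ⟨u, r0⟩ := Z.r0
  have pT : Pm (S ∪ C) := Finset.forall_mem_union.2 ⟨p, fun q a => (c2 q a).1⟩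
  have lo := nq_low c1 fun q a => (c2 q a).2.2
  generalize hN : ∏ q ∈ C, nq A B q = N at lo mc
  have zt : 2 ^ (i + e1 + w) • N • z = 0 := by rw [smul_comm, Z.tor, zsmul_zero]
  have zm : N • z ∈ Z0 A B (S ∪ C) c := zsmul_mem (z0_up Finset.subset_union_left Z.mem) N
  have pr := r0.pr h o Z.mem Z.tor ⟨_, Bt.Z0_le _ c _ zm⟩ N rfl
  have nl : ‖(N * (((u * σ : ℤ_[2]) : K) * ρ) : K)‖ = ‖(N : K)‖ * ‖(σ * ρ : K)‖ := by
    simp only [norm_mul, PadicInt.padic_norm_e_of_padicInt, PadicInt.norm_units, one_mul]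
  have big := sg_low h G (i := i) (j := i + e1) (x := 2 ^ w • N • z)
    (by rw [← mul_smul, ← pow_add, zt]) fun ⟨t, b⟩ => by
      have := Cp.pr_km (hq h) o (Cp.ivP o) (2 ^ m • y) (2 ^ (i + w) • ⟨_, Bt.Z0_le _ c _ zm⟩)
        ⟨t • _, fun g _ => congrFun (show 2 ^ (i + w) • N • z = dd A B _ by
          rw [map_zsmul, pow_add, mul_smul]; exact b.symm) g⟩
      rw [map_nsmul, pr, ← Ba.mem_Tk, Ba.mk_mem, norm_mul, nl] at this
      rw [add_right_comm, pow_add _ _ e1, mul_left_comm, mul_comm, mul_le_iff_le_one_left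
        (by positivity)] at this
      refine h1.not_ge (le_trans ?_ (mul_le_of_le_one_left (by positivity) this))
      calc _ ≤ _ := le_mul_of_one_le_left (by positivity) lo
        _ = _ := by ring
  obtain ⟨cb, eq⟩ := mc g G (e1 + τ) (i + e1) (by omega) (by omega) (by
    rw [sg, Nat.add_sub_cancel_left, show 4 = 2 * 2 from rfl, mul_pow, pow_add 2 e1, mul_assoc,
      pow_add 2 i, mul_comm (2 ^ i), mul_assoc]
    refine Nat.mul_le_mul_left _ (le_trans ?_ (hτ ▸ big))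
    rw [← pow_add, ← pow_add]
    exact Nat.pow_le_pow_right two_pos (by omega))
  obtain ⟨t1, t2, t3⟩ := top (S ∪ C) (k _ (s.trans Finset.subset_union_left) pT).1
    (fun p a => oq p (pT p a)) _ _ (2 ^ m) (i + e1) ⟨_, zm⟩ _ (Subtype.ext zt) cb (by positivity) pr
    (by omega) (by omega) (by
      have : (2 : ℝ) ^ e2 ≤ 2 ^ (i + e1) := pow_le_pow_right₀ one_le_two (by omega)
      rw [nl, pow_add] at *
      refine le_of_mul_le_mul_right (h2.le.trans ?_) (pow_pos two_pos (m * m))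
      calc _ ≤ (‖(N : K)‖ * 2 ^ (m * m)) * (‖(σ * ρ : K)‖ * (2 ^ i * 2 ^ e1)) := by
            rw [← one_mul (_ * 2 ^ e2)]; gcongr
        _ = _ := by ring)
  refine dis h L (fun q a => ⟨(c2 q a).1, (c2 q a).2.1⟩) hF om (Q := Fin.elim0) (Cn.basis_zero.2 t1)
    t2 ρ0 (by simp [v, e, Cn.reg_zero]) σ0 ?_ eq
  rwa [hN, mul_assoc, norm_mul, ← nl]

end Vale.Agent.P014T.Top
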