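import Vale.Agent.P014T.St
import Vale.Agent.P014T.Lh.Ent

/-! # P014T: the row `LH` -/

set_option linter.all false

namespace Vale.Agent.P014T.Top

theorem lh : LH := fun E _ L hL A B u r s t N G a hm hn p hp _ => by
  obtain ⟨S, -, -, ht⟩ := Lk.at_fin hm hn.rn hn.fin
  simp only [← Lk.lf_md hm]
  refine or_iff_not_imp_left.2 fun d => ?_
  have k := (Lh.lge hn.rn ht hL hp d).2.2
  exact ⟨by simpa using (k 1).symm, (k 2).symm⟩

end Vale.Agent.P014T.Top
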