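import Vale.Agent.P014T.Ht.Defs

/-! # P014T: the primary component has the same valuation as the whole group -/

set_option autoImplicit false
set_option linter.all false

namespace Vale.Agent.P014T.Top

open Vale.Agent.P014
open scoped Classical

theorem card_pr (G : Type) [AddCommGroup G] [Finite G] (p : ℕ) [Fact p.Prime] :
    ∃ m : ℕ, ¬ p ∣ m ∧ Nat.card G = m * Nat.card (AddCommMonoid.primaryComponent G p) := by
  refine ⟨_, fun d => ?_, AddSubgroup.card_eq_card_quotient_mul_card_addSubgroup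
    (AddCommGroup.primaryComponent G p)⟩
  obtain ⟨x, hx⟩ := exists_prime_addOrderOf_dvd_card' p d
  obtain ⟨y, rfl⟩ := QuotientAddGroup.mk_surjective x
  obtain ⟨k, e⟩ := (QuotientAddGroup.eq_zero_iff (N := AddCommGroup.primaryComponent G p) (p • y)).1
    (by simpa only [hx, QuotientAddGroup.mk_nsmul] using
      addOrderOf_nsmul_eq_zero (y : G ⧸ AddCommGroup.primaryComponent G p))
  rw [(QuotientAddGroup.eq_zero_iff (N := AddCommGroup.primaryComponent G p) y).2
    ⟨k + 1, by rw [pow_succ, mul_smul, e]⟩, addOrderOf_zero] at hx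
  exact (Fact.out : p.Prime).ne_one hx.symm

theorem ppart_sha {E : WeierstrassCurve ℚ} {L : ℂ → ℂ} {p r : ℕ} [Fact p.Prime]
    {P : Fin r → E.toAffine.Point} (h : PPart E L p P (Nat.card (shaPrimary E p)))
    (f : Finite (Sha E)) : PPart E L p P (Nat.card (Sha E)) := by
  obtain ⟨ρ, h0, h1, h2⟩ := h
  obtain ⟨m, d, e⟩ : ∃ m : ℕ, ¬ p ∣ m ∧ Nat.card (Sha E) = m * Nat.card (shaPrimary E p) :=
    card_pr (Sha E) p
  have m0 : (m : ℚ) ≠ 0 := Nat.cast_ne_zero.2 fun z => d (z ▸ dvd_zero _)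
  have m1 : (m : ℂ) ≠ 0 := by exact_mod_cast m0
  refine ⟨ρ / m, div_ne_zero h0 m0, ?_, ?_⟩
  · rw [padicValRat.div h0 m0, h1, padicValRat.of_nat, padicValNat.eq_zero_of_not_dvd d]
    rfl
  · rw [h2, e]
    generalize Nat.card (shaPrimary E p) = k
    push_cast
    field_simp

end Vale.Agent.P014T.Top
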