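import Vale.Agent.P014T.St
import Vale.Agent.P014T.Lk.Mod
import Vale.Agent.P014T.Ht.Can

/-! # P014T, top level: row STAT -/

set_option autoImplicit false
set_option linter.all false

noncomputable section

namespace Vale.Agent.P014T.Top

open P004N (IsEll cE)
open P004M.TE (al)
open Lc (Wq tm np)
open Sm (Md)

namespace Sa

theorem md (A B : ℤ) : Md (Wq (sI A B)) A B 1 0 0 0 := by
  constructor <;> simp [sI]

theorem disc (A B : ℤ) : (sI A B).Δ = -16 * (4 * A ^ 3 + 27 * B ^ 2) := by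
  simp [sI, WeierstrassCurve.Δ, WeierstrassCurve.b₂, WeierstrassCurve.b₄, WeierstrassCurve.b₆,
    WeierstrassCurve.b₈]
  ring

theorem ell {W : WeierstrassCurve ℤ} (h : W.Δ ≠ 0) : (Wq W).IsElliptic :=
  ⟨by rw [WeierstrassCurve.map_Δ]; simpa using h⟩

theorem ell_sI {A B : ℤ} (h : El A B) : (Wq (sI A B)).IsElliptic :=
  ell (disc A B ▸ mul_ne_zero (by norm_num) h)

theorem ex_bd {W : WeierstrassCurve ℤ} (h : W.Δ ≠ 0) : Bd W (2 * W.Δ).natAbs.primeFactors :=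
  ⟨fun _ => Nat.prime_of_mem_primeFactors, fun p a b => Nat.mem_primeFactors.2
    ⟨a, Int.natCast_dvd.1 b, Int.natAbs_ne_zero.2 (mul_ne_zero two_ne_zero h)⟩⟩

variable {E : WeierstrassCurve ℚ} [E.IsElliptic]

theorem isEll {A B : ℤ} {u r s t : ℚ} (h : Md E A B u r s t) {L : ℂ → ℂ} :
    IsEll E L ↔ IsEll (Wq (sI A B)) L := by
  have := ell_sI h.hD
  simp only [IsEll, Lk.lf_md h, Lk.lf_md (md A B)]

theorem reg {k : ℕ} (hk : k ≤ 1) {P Q : Fin k → E.toAffine.Point} (hP : IsBasisModTorsion E P)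
    (hQ : IsBasisModTorsion E Q) : regulator E P = regulator E Q := by
  obtain rfl | rfl := Nat.le_one_iff_eq_zero_or_eq_one.1 hk
  · rw [Cn.reg_zero, Cn.reg_zero]
  obtain ⟨n, a⟩ := (Cn.basis_one.1 hP).2 (Q 0)
  obtain ⟨m, b⟩ := (Cn.basis_one.1 hQ).2 (P 0)
  have a := Cn.can_reg a
  have b := Cn.can_reg b
  rw [← Cn.reg_one] at a b
  have e : n ^ 2 * m ^ 2 = 1 := by
    have : ((n ^ 2 * m ^ 2 : ℤ) : ℝ) * regulator E P = 1 * regulator E P := by
      push_cast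
      rw [mul_right_comm, ← a, mul_comm, ← b, one_mul]
    exact_mod_cast mul_right_cancel₀ (Cn.reg_pos hP).ne' this
  have : (n : ℝ) ^ 2 = 1 := by exact_mod_cast Int.eq_one_of_mul_eq_one_right (sq_nonneg n) e
  rw [a, this, one_mul]

end Sa

/-- the same row for a continuation to a neighbourhood of `1 ≤ re s` -/
def STAT' : Prop := ∀ (E : WeierstrassCurve ℚ) [E.IsElliptic], P014.GlobalMinimal E →
  ∀ L, IsEll E L → ∀ (A B : ℤ) u r s t (k : ℕ), Md E A B u r s t → k ≤ 1 →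
    (analyticOrderAt L 1 = k → Ar A B k) ∧ (Di A B k 0 →
      Module.finrank ℤ E.toAffine.Point = k ∧ Finite (P014.shaPrimary E 2) ∧
      (∃ P : Fin k → E.toAffine.Point, IsBasisModTorsion E P) ∧
      ∀ P : Fin k → E.toAffine.Point, IsBasisModTorsion E P →
        PPart E L 2 P (Nat.card (P014.shaPrimary E 2)))

theorem stat' (inv : INV) : STAT' := by
  intro E _ hm L hE A B u r s t k h hk
  refine ⟨fun e => ⟨L, (Sa.isEll h).1 hE, e⟩, fun ⟨S', b', d⟩ => ?_⟩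
  obtain ⟨W, rfl⟩ := Lc.ex_int hm.1
  have hΔ : W.Δ ≠ 0 := fun e => (Wq W).isUnit_Δ.ne_zero (by rw [WeierstrassCurve.map_Δ, e, map_zero])
  have b := Sa.ex_bd hΔ
  generalize (2 * W.Δ).natAbs.primeFactors = S at b
  obtain ⟨M, Q, ρ, hM, o, hQ, fi, r0, v, e⟩ := (inv W A B u r s t S S' k 0 hΔ h b b').2 d
  refine ⟨Cn.basis_rank hQ, fi, ⟨Q, hQ⟩, fun P hP => ⟨ρ, r0, v, ?_⟩⟩
  obtain ⟨-, o', e'⟩ := Lk.dep (a := fun n => (Wq W).LFunction n)
    ⟨Finset.prod_ne_zero_iff.2 fun p a => (b.1 p a).ne_zero, fun _ _ => rfl⟩ hE hM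
  have pos : (∏ p ∈ S, (np W p / p : ℝ)) ≠ 0 := Finset.prod_ne_zero_iff.2 fun p a =>
    div_ne_zero (Nat.cast_ne_zero.2 (Lc.np_pos W (b.1 p a)).ne')
      (Nat.cast_ne_zero.2 (b.1 p a).ne_zero)
  rw [e' k (o' ▸ o.ge), Nat.primeFactors_prod b.1,
    Finset.prod_congr rfl fun p a => Lk.P1_np W hΔ hm (b.1 p a)] at e
  simp only [mul_div_assoc, Finset.prod_mul_distrib] at e
  rw [Sa.reg hk hP hQ, Lc.tam_prod W S fun p a c => b.2 p a (c.mul_left 2)]
  refine mul_left_cancel₀ (Complex.ofReal_ne_zero.2 pos) (e.trans ?_)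
  push_cast
  ring

theorem stat (inv : INV) : STAT := fun E _ hm L hL => stat' inv E hm L (Lk.hw hL)

end Vale.Agent.P014T.Top
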