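import Vale.Agent.P014T.Top
import Vale.Agent.P014T.Tp.Stat

/-! # P014T: the words of the problem for the weak continuation -/

set_option autoImplicit false
set_option linter.all false

namespace Vale.Agent.P014T.Top

theorem ste (inv : INV) : STE := stat' inv

end Vale.Agent.P014T.Top
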