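import Vale.Agent.P014T.Top
import Vale.Agent.P014T.Lu.St
import Vale.Agent.P014T.Lu.Gd

/-! # P014T: the row LGU -/

set_option autoImplicit false
set_option linter.all false

open NumberField Matrix

noncomputable section

namespace Vale.Agent.P014T.Top

open Vale.Agent.P022 (Qb GQ)
open Vale.Agent.P004F (sd hq M2)
open P004M.TE (al)

theorem lgu (l2 : Lu.LG2) (lg : Lu.LGG) (hb : Lu.HB) (elc : ELC) (lgi : LGI) : LGU := by
  intro A B h N G a nf
  obtain ⟨A', B', h', ⟨w, Λ, F, x, y, par⟩, k⟩ := l2 N G a nf.rn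
  have nf' : Nf A' B' N G a := ⟨nf.rn, par.mat⟩
  refine lgi _ _ _ _ h' h N a 1 (nf'.ae nf) fun p hp p2 => ?_
  have e : (fun g => sd 1 g • P004M.TE.mt (hq h') g) = fun g => P004M.TE.mt (hq h') g := by
    funext g
    rw [show sd 1 g = 1 from if_pos (P004S.nu_one_left g), one_smul]
  rw [e]
  refine or_iff_not_imp_left.2 fun no =>
    ⟨fun k => hp.ne_one (by exact_mod_cast Int.eq_one_of_dvd_one (by positivity) k), ?_⟩
  rcases (elc A' B' h' p hp p2).2 with ⟨-, b⟩ | ⟨-, b⟩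
  · obtain ⟨c1, c2⟩ := lg A' B' h' N G a nf' p hp p2 b
    exact .inl ⟨c1, c2 ▸ b⟩
  simp only [No, not_forall] at no
  obtain ⟨P, o, v, hv, v0⟩ := no
  obtain ⟨φ, f⟩ := P022D.W.exists_phi o.1 o.2.1 o.2.2
  have z := k p P φ o p2 f v _ v0 hv (b P o).1 (((b P o).2 v hv φ f).trans
    (Int.cast_smul_eq_zsmul ℤ_[2] _ _).symm)
  have p0 : (p : ℤ) ≠ 0 := by exact_mod_cast hp.ne_zero
  unfold Lu.Ea at z
  by_cases d : p ∣ N
  · rw [if_pos d] at z
    have z' : (p : ℤ) - a p * (al A' B' p * p) + 0 = 0 := by exact_mod_cast z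
    have : a p * al A' B' p = 1 := mul_left_cancel₀ p0 (by linear_combination -z')
    exact .inr ⟨d, Int.eq_of_mul_eq_one this ▸ b⟩
  · rw [if_neg d] at z
    have z' : (p : ℤ) - a p * (al A' B' p * p) + (al A' B' p * p) ^ 2 = 0 := by exact_mod_cast z
    have : al A' B' p * (a p - al A' B' p * p) = 1 :=
      mul_left_cancel₀ p0 (by linear_combination -z')
    obtain ⟨c1, c2⟩ := hb N G a nf.rn p hp d
    rcases Int.eq_one_or_neg_one_of_mul_eq_one' this with ⟨t, u⟩ | ⟨t, u⟩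
    · exact absurd (by rw [t] at u; linear_combination u) c1
    · exact absurd (by rw [t] at u; linear_combination u) c2

end Vale.Agent.P014T.Top
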